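import Vale.Agent.P302R.Base

/-! # P302: the modified integer round-up property for small LP values -/

namespace Vale.Agent.Results.P302.SmallLPValue

open Finset Vale.Agent.P302R

universe u

theorem result {ι : Type u} (a : ι → ℝ) :
    (∀ T : Finset ι, (∀ i ∈ T, 0 < a i ∧ a i ≤ 1) → ⌈LP a T⌉ ≤ 3 →
      (OPT a T : ℤ) ≤ ⌈LP a T⌉ + 1) ∧
    (∀ m : ℕ,
      (∀ T : Finset ι, (∀ i ∈ T, 0 < a i ∧ a i ≤ 1) → (∀ i ∈ T, 1 < (m : ℝ) * a i) →
        LP a T ≤ m → OPT a T ≤ m + 1) →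
      ∀ T : Finset ι, (∀ i ∈ T, 0 < a i ∧ a i ≤ 1) → LP a T ≤ m → OPT a T ≤ m + 1) := by
  classical
  refine ⟨fun T h h3 => final a T h h3, ?_⟩
  intro m hbase T h hLP
  refine Nat.sInf_le (reduce m a ?_ T.card T rfl h hLP)
  intro U hU hbig hLPU
  have h1 : OPT a U ≤ m + 1 := hbase U hU hbig hLPU
  have h2 : Packs a U (OPT a U) := Nat.sInf_mem (s := {m | Packs a U m}) ⟨_, packs_each U hU⟩
  exact h2.mono h1

end Vale.Agent.Results.P302.SmallLPValue
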